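import Mathlib

/-!
Consecutive blocks of a circulant Hadamard row cannot nearly all follow one pattern.
-/

open Finset

namespace Vale.Agent.Results.P033.BlockPatterns

theorem sum_blocks (a b : ℕ) (f : ℕ → ℤ) :
    ∑ k ∈ range (a * b), f k = ∑ j ∈ range b, ∑ i ∈ range a, f (a * j + i) := by
  induction b with
  | zero => simp
  | succ b ih => rw [sum_range_succ, Nat.mul_succ, sum_range_add, ih]

theorem sum_shift (b : ℕ) (hb : 0 < b) (g : ℕ → ℤ) :
    ∑ j ∈ range b, g ((j + 1) % b) = ∑ j ∈ range b, g j := by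
  obtain ⟨c, rfl⟩ := Nat.exists_eq_succ_of_ne_zero hb.ne'
  rw [sum_range_succ, sum_range_succ' g c, Nat.succ_eq_add_one, Nat.mod_self]
  congr 1
  refine sum_congr rfl fun j hj => ?_
  rw [Nat.mod_eq_of_lt (by have := mem_range.1 hj; omega)]

theorem next_block (a b j i : ℕ) (hi : i < a) (hj : j < b) :
    (a * (j + 1) + i) % (a * b) = a * ((j + 1) % b) + i := by
  rcases lt_or_eq_of_le (Nat.succ_le_of_lt hj) with h | h
  · have : a * (j + 1 + 1) ≤ a * b := Nat.mul_le_mul_left a h
    rw [Nat.mod_eq_of_lt h, Nat.mod_eq_of_lt]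
    rw [Nat.mul_add] at this
    omega
  · have h' : j + 1 = b := h
    have : a * 1 ≤ a * b := Nat.mul_le_mul_left a (by omega)
    rw [h', Nat.mod_self, Nat.add_mod_left, Nat.mul_zero, Nat.zero_add, Nat.mod_eq_of_lt]
    omega

theorem result (a b : ℕ) (ha : 2 ≤ a) (hb : 2 ≤ b) (h : ℕ → ℤ)
    (hsign : ∀ k, h k = 1 ∨ h k = -1)
    (hcorr : ∀ t, 1 ≤ t → t < a * b →
      ∑ k ∈ range (a * b), h k * h ((k + t) % (a * b)) = 0)
    (u : ℕ → ℤ) (hu : ∀ i, u i = 1 ∨ u i = -1) :
    b ≤ (8 * a - 6) * ((range b).filter fun j =>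
      ¬ (∀ i < a, h (a * j + i) = u i) ∧ ¬ ∀ i < a, h (a * j + i) = -u i).card := by
  classical
  obtain ⟨c, rfl⟩ : ∃ c, a = c + 1 := ⟨a - 1, by omega⟩
  set P : ℕ → Prop := fun j =>
    ¬ (∀ i < c + 1, h ((c + 1) * j + i) = u i) ∧
      ¬ ∀ i < c + 1, h ((c + 1) * j + i) = -u i with hPdef
  let e : ℕ → ℤ := fun j => if P j then 1 else 0
  let v : ℕ → ℤ := fun j => if ∀ i < c + 1, h ((c + 1) * j + i) = u i then 1 else -1
  let σ : ℕ → ℕ := fun j => (j + 1) % b
  have hv : ∀ j, v j = 1 ∨ v j = -1 := fun j => by simp only [v]; split_ifs <;> simp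
  have he : ∀ j, e j = 0 ∨ e j = 1 := fun j => by simp only [e]; split_ifs <;> simp
  have hgood : ∀ j, e j = 0 → ∀ i < c + 1, h ((c + 1) * j + i) = v j * u i := by
    intro j hj i hi
    have hnP : ¬ P j := fun q => by simp [e, q] at hj
    by_cases q : ∀ i < c + 1, h ((c + 1) * j + i) = u i
    · simp only [v]; rw [if_pos q, one_mul]; exact q i hi
    · have q' : ∀ i < c + 1, h ((c + 1) * j + i) = -u i := by
        by_contra q'
        exact hnP ⟨q, q'⟩
      simp only [v]; rw [if_neg q, neg_one_mul]; exact q' i hi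
  have habs : ∀ x y : ℤ, (x = 1 ∨ x = -1) → (y = 1 ∨ y = -1) → |x * y| = 1 := by
    intro x y hx hy
    rcases hx with rfl | rfl <;> rcases hy with rfl | rfl <;> rfl
  have hsumabs : ∀ (m : ℕ) (f : ℕ → ℤ), (∀ i, |f i| ≤ 1) → |∑ i ∈ range m, f i| ≤ (m : ℤ) := by
    intro m f hf
    refine (abs_sum_le_sum_abs _ _).trans ((sum_le_sum fun i _ => hf i).trans ?_)
    simp
  -- comparison of a sum over neighbouring blocks with its value on the pattern
  have hcomp : ∀ (F G : ℕ → ℤ) (K : ℤ), (∀ j, |F j| ≤ K) → (∀ j, |G j| ≤ K) →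
      (∀ j < b, e j = 0 → e (σ j) = 0 → F j = G j) →
      |∑ j ∈ range b, F j - ∑ j ∈ range b, G j| ≤ 4 * K * ∑ j ∈ range b, e j := by
    intro F G K hF hG hFG
    rw [← sum_sub_distrib]
    refine (abs_sum_le_sum_abs _ _).trans ?_
    have hs : 4 * K * ∑ j ∈ range b, e j = ∑ j ∈ range b, 2 * K * (e j + e (σ j)) := by
      rw [← mul_sum, sum_add_distrib, sum_shift b (by omega) e]
      ring
    rw [hs]
    refine sum_le_sum fun j hj => ?_
    have h2 : |F j - G j| ≤ 2 * K := by
      have := abs_sub (F j) (G j)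
      linarith [hF j, hG j]
    have hK : 0 ≤ 2 * K := (abs_nonneg _).trans h2
    rcases he j with q1 | q1 <;> rcases he (σ j) with q2 | q2 <;> rw [q1, q2]
    · rw [hFG j (mem_range.1 hj) q1 q2]; simp
    all_goals nlinarith
  set β : ℤ := ∑ j ∈ range b, e j with hβ
  have hb' : 1 ≤ c := by omega
  have hn : (c + 1) * 2 ≤ (c + 1) * b := Nat.mul_le_mul_left _ hb
  -- shift by a
  let V : ℤ := ∑ j ∈ range b, v j * v (σ j)
  have hA : |((c : ℤ) + 1) * V| ≤ 4 * ((c : ℤ) + 1) * β := by
    have h0 := hcorr (c + 1) (by omega) (by omega)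
    rw [sum_blocks] at h0
    have := hcomp (fun j => ∑ i ∈ range (c + 1),
        h ((c + 1) * j + i) * h (((c + 1) * j + i + (c + 1)) % ((c + 1) * b)))
      (fun j => ((c : ℤ) + 1) * (v j * v (σ j))) ((c : ℤ) + 1)
      (fun j => le_of_le_of_eq (hsumabs _ _ fun i => (habs _ _ (hsign _) (hsign _)).le)
        (by push_cast; ring))
      (fun j => by rw [abs_mul, habs _ _ (hv _) (hv _), abs_of_nonneg (by positivity), mul_one])
      (fun j hj q1 q2 => ?_)
    · rw [h0, ← mul_sum, zero_sub, abs_neg] at this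
      exact this
    · have : ∀ i ∈ range (c + 1), h ((c + 1) * j + i) *
          h (((c + 1) * j + i + (c + 1)) % ((c + 1) * b)) = v j * v (σ j) := by
        intro i hi
        have hi' := mem_range.1 hi
        rw [show (c + 1) * j + i + (c + 1) = (c + 1) * (j + 1) + i by ring,
          next_block _ _ _ _ hi' hj, hgood j q1 i hi', hgood _ q2 i hi']
        rcases hu i with q | q <;> rw [q] <;> ring
      rw [sum_congr rfl this]
      simp
  have hV : |V| ≤ 4 * β := by
    rw [abs_mul, abs_of_nonneg (by positivity : (0 : ℤ) ≤ (c : ℤ) + 1)] at hA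
    have hc : (0 : ℤ) < (c : ℤ) + 1 := by positivity
    nlinarith
  -- shift by a - 1
  have h1 := hcorr c hb' (by omega)
  rw [sum_blocks] at h1
  simp only [sum_range_succ', Nat.add_zero] at h1
  rw [sum_add_distrib] at h1
  let C : ℤ := ∑ i ∈ range c, u (i + 1) * u i
  have hC : |C| ≤ c := hsumabs _ _ fun i => (habs _ _ (hu _) (hu _)).le
  have hfirst : |∑ j ∈ range b, h ((c + 1) * j) * h (((c + 1) * j + c) % ((c + 1) * b)) -
      ∑ _j ∈ range b, u 0 * u c| ≤ 2 * β := by
    rw [← sum_sub_distrib]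
    refine (abs_sum_le_sum_abs _ _).trans ?_
    rw [hβ, mul_sum]
    refine sum_le_sum fun j hj => ?_
    have hjlt : (c + 1) * j + c < (c + 1) * b := by
      have : (c + 1) * (j + 1) ≤ (c + 1) * b := Nat.mul_le_mul_left _ (mem_range.1 hj)
      rw [Nat.mul_succ] at this
      omega
    rw [Nat.mod_eq_of_lt hjlt]
    rcases he j with q | q <;> rw [q]
    · have g0 := hgood j q 0 (by omega)
      rw [Nat.add_zero] at g0
      rw [g0, hgood j q c (by omega)]
      rcases hv j with r | r <;> rw [r] <;> simp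
    · have := abs_sub (h ((c + 1) * j) * h ((c + 1) * j + c)) (u 0 * u c)
      rw [habs _ _ (hsign _) (hsign _), habs _ _ (hu _) (hu _)] at this
      linarith
  have hsecond : |∑ j ∈ range b, ∑ i ∈ range c,
      h ((c + 1) * j + (i + 1)) * h (((c + 1) * j + (i + 1) + c) % ((c + 1) * b)) -
      ∑ j ∈ range b, C * (v j * v (σ j))| ≤ 4 * (c : ℤ) * β := by
    refine hcomp _ _ _ (fun j => hsumabs _ _ fun i => (habs _ _ (hsign _) (hsign _)).le)
      (fun j => by rw [abs_mul, habs _ _ (hv _) (hv _), mul_one]; exact hC) fun j hj q1 q2 => ?_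
    rw [show C = ∑ i ∈ range c, u (i + 1) * u i from rfl, sum_mul]
    refine sum_congr rfl fun i hi => ?_
    have hi' := mem_range.1 hi
    rw [show (c + 1) * j + (i + 1) + c = (c + 1) * (j + 1) + i by ring,
      next_block _ _ _ _ (by omega) hj, hgood j q1 (i + 1) (by omega), hgood _ q2 i (by omega)]
    ring
  have hCV : |C * V| ≤ (c : ℤ) * (4 * β) := by
    rw [abs_mul]
    exact mul_le_mul hC hV (abs_nonneg _) (by positivity)
  rw [← mul_sum] at hsecond
  have hmain : (b : ℤ) ≤ (8 * (c : ℤ) + 2) * β := by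
    rw [sum_const, card_range, nsmul_eq_mul] at hfirst
    change |_ - C * V| ≤ _ at hsecond
    rcases hu 0 with q | q <;> rcases hu c with r | r <;> rw [q, r] at hfirst <;>
      rw [abs_le] at hfirst hsecond hCV <;>
      linarith [hfirst.1, hfirst.2, hsecond.1, hsecond.2, hCV.1, hCV.2]
  have hβ' : β = (((range b).filter P).card : ℤ) := by
    rw [hβ, card_filter]
    push_cast
    rfl
  rw [hβ'] at hmain
  have : 8 * (c + 1) - 6 = 8 * c + 2 := by omega
  rw [this]
  exact_mod_cast hmain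

end Vale.Agent.Results.P033.BlockPatterns
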