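import Vale.Agent.P033.Density

/-!
The orders of circulant Hadamard matrices up to `X` number `o(sqrt X)`.
-/

open Finset Real

namespace Vale.Agent.Results.P033.DensityZero

/-- An order greater than one of a circulant Hadamard matrix is four times a square. -/
theorem order_eq {n : ℕ} (hn : 2 ≤ n) (h : ℕ → ℤ) (hsign : ∀ k, k < n → h k = 1 ∨ h k = -1)
    (hcorr : ∀ t, 1 ≤ t → t < n → ∑ k ∈ range n, h k * h ((k + t) % n) = 0) :
    ∃ u : ℕ, 1 ≤ u ∧ n = 4 * u ^ 2 := by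
  have hn0 : 0 < n := by omega
  have hrow : ∀ k, k < n → ∑ t ∈ range n, h ((k + t) % n) = ∑ t ∈ range n, h t := by
    intro k hk
    refine sum_nbij' (fun t => (k + t) % n) (fun t => (t + (n - k)) % n)
      (fun t _ => mem_range.2 (Nat.mod_lt _ hn0)) (fun t _ => mem_range.2 (Nat.mod_lt _ hn0))
      (fun t ht => ?_) (fun t ht => ?_) fun t _ => rfl
    · have ht' := mem_range.1 ht
      rw [Nat.mod_add_mod, show k + t + (n - k) = t + n by omega, Nat.add_mod_right,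
        Nat.mod_eq_of_lt ht']
    · have ht' := mem_range.1 ht
      rw [Nat.add_mod_mod, show k + (t + (n - k)) = t + n by omega, Nat.add_mod_right,
        Nat.mod_eq_of_lt ht']
  have hsum : (∑ k ∈ range n, h k) * (∑ k ∈ range n, h k) = n := by
    calc (∑ k ∈ range n, h k) * (∑ k ∈ range n, h k)
        = ∑ k ∈ range n, h k * ∑ t ∈ range n, h ((k + t) % n) := by
          rw [sum_mul]
          exact sum_congr rfl fun k hk => by rw [hrow k (mem_range.1 hk)]
      _ = ∑ t ∈ range n, ∑ k ∈ range n, h k * h ((k + t) % n) := by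
          simp only [mul_sum]
          rw [sum_comm]
      _ = ∑ k ∈ range n, h k * h ((k + 0) % n) := by
          refine sum_eq_single 0 (fun t ht ht0 => ?_) fun h0 => absurd (mem_range.2 hn0) h0
          exact hcorr t (Nat.pos_of_ne_zero ht0) (mem_range.1 ht)
      _ = ∑ _k ∈ range n, (1 : ℤ) := sum_congr rfl fun k hk => by
          rw [Nat.add_zero, Nat.mod_eq_of_lt (mem_range.1 hk)]
          rcases hsign k (mem_range.1 hk) with q | q <;> rw [q] <;> norm_num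
      _ = _ := by simp
  have heven : 2 ∣ n := by
    have h1 := congrArg (fun z : ℤ => (z : ZMod 2)) (hcorr 1 le_rfl (by omega))
    simp only [Int.cast_sum, Int.cast_mul, Int.cast_zero] at h1
    have hone : ∀ k, k < n → ((h k : ℤ) : ZMod 2) = 1 := fun k hk => by
      rcases hsign k hk with q | q <;> rw [q] <;> decide
    rw [sum_congr rfl fun k hk => by
      rw [hone k (mem_range.1 hk), hone _ (Nat.mod_lt _ hn0), one_mul]] at h1
    rw [sum_const, card_range, nsmul_eq_mul, mul_one, ZMod.natCast_eq_zero_iff] at h1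
    exact h1
  set S := (∑ k ∈ range n, h k).natAbs with hS
  have hSn : S * S = n := by
    rw [hS, ← Int.natAbs_mul, hsum, Int.natAbs_natCast]
  have h2 : 2 ∣ S := by
    rcases Nat.prime_two.dvd_mul.1 (hSn.symm ▸ heven : 2 ∣ S * S) with q | q <;> exact q
  obtain ⟨u, hu⟩ := h2
  refine ⟨u, ?_, by rw [← hSn, hu]; ring⟩
  rcases Nat.eq_zero_or_pos u with q | q
  · rw [q, mul_zero] at hu; rw [hu] at hSn; omega
  · exact q

open scoped Classical in
theorem result : ∀ ε : ℝ, 0 < ε → ∃ X₀ : ℕ, ∀ X : ℕ, X₀ ≤ X →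
    (((Icc 1 X).filter fun n => ∃ h : ℕ → ℤ, (∀ k, k < n → h k = 1 ∨ h k = -1) ∧
      ∀ t, 1 ≤ t → t < n → ∑ k ∈ range n, h k * h ((k + t) % n) = 0).card : ℝ)
      ≤ ε * Real.sqrt X := by
  intro ε hε
  obtain ⟨Y₀, hY₀⟩ := Vale.Agent.P033.density hε
  obtain ⟨K, hK⟩ := exists_nat_ge (2 / ε)
  refine ⟨(2 * (Y₀ + K + 1)) ^ 2, fun X hX => ?_⟩
  have hsqrt : 2 * (Y₀ + K + 1) ≤ Nat.sqrt X := Nat.le_sqrt'.2 hX
  set Y := Nat.sqrt X / 2 with hY
  have h := hY₀ Y (by omega)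
  set T := (Icc 1 Y).filter fun u => ∃ h : ℕ → ℤ,
    (∀ k, k < 4 * u ^ 2 → h k = 1 ∨ h k = -1) ∧
      ∀ t, 1 ≤ t → t < 4 * u ^ 2 →
        ∑ k ∈ range (4 * u ^ 2), h k * h ((k + t) % (4 * u ^ 2)) = 0 with hT
  have hsub : ((Icc 1 X).filter fun n => ∃ h : ℕ → ℤ, (∀ k, k < n → h k = 1 ∨ h k = -1) ∧
      ∀ t, 1 ≤ t → t < n → ∑ k ∈ range n, h k * h ((k + t) % n) = 0) ⊆
      insert 1 (T.image fun u => 4 * u ^ 2) := by
    intro n hn
    obtain ⟨hn1, f, hf1, hf2⟩ := mem_filter.1 hn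
    obtain ⟨ha, hb⟩ := mem_Icc.1 hn1
    rw [mem_insert]
    rcases eq_or_lt_of_le ha with q | q
    · exact Or.inl q.symm
    · obtain ⟨u, hu1, hu⟩ := order_eq q f hf1 hf2
      subst hu
      refine Or.inr (mem_image.2 ⟨u, mem_filter.2 ⟨mem_Icc.2 ⟨hu1, ?_⟩, f, hf1, hf2⟩, rfl⟩)
      have : 2 * u ≤ Nat.sqrt X := Nat.le_sqrt'.2 (by rw [mul_pow]; exact hb)
      omega
  have hcard : (((Icc 1 X).filter fun n => ∃ h : ℕ → ℤ, (∀ k, k < n → h k = 1 ∨ h k = -1) ∧
      ∀ t, 1 ≤ t → t < n → ∑ k ∈ range n, h k * h ((k + t) % n) = 0).card : ℝ) ≤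
      (T.card : ℝ) + 1 := by
    exact_mod_cast (card_le_card hsub).trans ((card_insert_le _ _).trans
      (Nat.add_le_add_right card_image_le 1))
  refine hcard.trans ?_
  have hYR : 2 * (Y : ℝ) ≤ Real.sqrt X := by
    refine le_trans ?_ Real.nat_sqrt_le_real_sqrt
    exact_mod_cast (show 2 * Y ≤ Nat.sqrt X by omega)
  have hKR : 2 / ε ≤ Real.sqrt X := by
    refine hK.trans (le_trans ?_ Real.nat_sqrt_le_real_sqrt)
    exact_mod_cast (show K ≤ Nat.sqrt X by omega)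
  rw [div_le_iff₀ hε] at hKR
  have h4 : (Y : ℝ) * ε * 2 ≤ Real.sqrt X * ε := by
    have := mul_le_mul_of_nonneg_right hYR hε.le
    linarith
  linarith [h, h4, hKR]


end Vale.Agent.Results.P033.DensityZero
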